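import Vale.Agent.Lib.P147H.CutCat

/-! P147 v3: all statements of the module CUTCAT are in `CutCat.lean`; this file only forwards. -/
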