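import Vale.Agent.Lib.P147H.StartUp
import Vale.Agent.Lib.P147H.Slab
import Vale.Agent.Lib.P147H.CutCat
import Vale.Agent.Lib.P147H.CutWin
import Vale.Agent.Lib.P147H.CutSum
import Vale.Agent.Lib.P147H.Long0
import Vale.Agent.Lib.P147H.Long2
import Vale.Agent.Lib.P147H.Tip

/-! P147, fourth version: many good tips for `κ > 1 / β`. -/

open MeasureTheory ProbabilityTheory Filter
open scoped ENNReal

namespace Vale.Agent.Lib.P147H

open Vale.Agent.Lib.P147 Vale.Agent.Lib.P147G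

variable {d : ℕ}

theorem tips_of2 {ν : Measure (ℕ → Step d)} (i : Fin d) {β b κ : ℝ} (hβ : 0 < β)
    (hU : 0 < ν (UpP i (fun n => (n : ℝ) ^ β - b))) (hκ : 1 / β < κ)
    (hcr : ∀ m, ν (UpP i (fun n => (n : ℝ) ^ β - b)) ≤ cr ν i m) (hcr1 : ∀ m, cr ν i m ≤ 1)
    (hslab : ∃ C : ℝ, 0 ≤ C ∧ ∀ m t : ℕ, 1 ≤ m → 1 ≤ t →
      ν (Slab i m t) ≤ ENNReal.ofReal (C * m / (t : ℝ) ^ β))
    (hnc : ∃ A : ℕ → ℝ≥0∞, Antitone A ∧ (∀ N m, m ≤ N → nc ν i N m ≤ A m) ∧ ∑' m, A m ≠ ⊤)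
    (hwin : ∃ C : ℝ≥0∞, C ≠ ⊤ ∧ ∀ L lam : ℕ, 1 ≤ lam → 2 * lam ≤ L →
      Wt ν (fun γ => Cr i L γ ∧ ∀ l, L - 2 * lam ≤ l → l < L - lam → ¬ Cut i γ l) ≤
        C * (lam + 1) * nc ν i (L + 1) lam)
    (hlong0 : ∀ L t : ℕ, Wt ν (fun γ => Cr i L γ ∧ t < γ.length) ≤ ν (Slab i L t))
    (hlong : ∀ L lam t : ℕ, 1 ≤ lam → 2 * lam ≤ L →
      Wt ν (fun γ => Cr i L γ ∧ ∃ l t₀, L - 2 * lam ≤ l ∧ l < L - lam ∧ CutAt i γ l t₀ ∧
        t₀ + t + 1 < γ.length) ≤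
          (ν (UpP i (fun n => (n : ℝ) ^ β - b)))⁻¹ * ν (Slab i (2 * lam) t)) :
    ∃ (M : ℝ) (δ : ℝ≥0∞), 0 < M ∧ 0 < δ ∧ ∀ L : ℕ, 1 ≤ L → δ ≤ Wt ν (Tip i L M κ) := by
  have hκ2 : 1 < κ * β := by rwa [div_lt_iff₀ hβ] at hκ
  have hκ0 : 0 < κ := lt_trans (by positivity) hκ
  set δ0 := ν (UpP i (fun n => (n : ℝ) ^ β - b)) with hδ0
  have hδtop : δ0 ≠ ⊤ := ne_top_of_le_ne_top ENNReal.one_ne_top (le_trans (hcr 0) (hcr1 0))
  obtain ⟨C1, hC1, hslab⟩ := hslab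
  obtain ⟨A, hAanti, hAnc, hAsum⟩ := hnc
  obtain ⟨C2, hC2, hwin⟩ := hwin
  -- the tail of no-cuts
  set f : ℕ → ℝ≥0∞ := fun j => C2 * ((2 : ℝ≥0∞) ^ j + 1) * A (2 ^ j) with hf
  have hfsum : ∑' j, f j ≠ ⊤ := by
    have h1 : ∑' k : ℕ, (2 : ℝ≥0∞) ^ k * A (2 ^ k) ≤ A 1 + 2 * ∑' k, A k := by
      have := ENNReal.tsum_condensed_le (f := A) (fun m n _ hmn => hAanti hmn)
      exact_mod_cast this
    have h2 : A 1 + 2 * ∑' k, A k ≠ ⊤ := by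
      refine ENNReal.add_ne_top.2 ⟨?_, ENNReal.mul_ne_top (by norm_num) hAsum⟩
      exact ne_top_of_le_ne_top hAsum (ENNReal.le_tsum 1)
    have h3 : ∑' j, f j ≤ ∑' j : ℕ, (2 * C2) * ((2 : ℝ≥0∞) ^ j * A (2 ^ j)) := by
      refine ENNReal.tsum_le_tsum fun j => ?_
      have h4 : (2 : ℝ≥0∞) ^ j + 1 ≤ 2 * 2 ^ j := by
        rw [two_mul]
        exact add_le_add le_rfl (one_le_pow₀ (by norm_num))
      calc f j = C2 * ((2 : ℝ≥0∞) ^ j + 1) * A (2 ^ j) := rfl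
        _ ≤ C2 * (2 * 2 ^ j) * A (2 ^ j) := by gcongr
        _ = (2 * C2) * ((2 : ℝ≥0∞) ^ j * A (2 ^ j)) := by ring
    refine ne_top_of_le_ne_top ?_ h3
    rw [ENNReal.tsum_mul_left]
    exact ENNReal.mul_ne_top (ENNReal.mul_ne_top (by norm_num) hC2) (ne_top_of_le_ne_top h2 h1)
  have hδ8 : 0 < δ0 / 8 := ENNReal.div_pos hU.ne' (by norm_num)
  obtain ⟨j0, hj0⟩ : ∃ j0, ∑' k, f (k + j0) ≤ δ0 / 8 := by
    have h1 := ENNReal.tendsto_sum_nat_add f hfsum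
    have h2 := (ENNReal.tendsto_nhds_zero.1 h1) (δ0 / 8) hδ8
    exact h2.exists
  -- the geometric part
  set ρ : ℝ := (2 : ℝ) ^ (1 - κ * β) with hρ
  have hρ0 : 0 < ρ := Real.rpow_pos_of_pos (by norm_num) _
  have hρ1 : ρ < 1 := Real.rpow_lt_one_of_one_lt_of_neg (by norm_num) (by linarith)
  set δr := δ0.toReal with hδr
  have hδr0 : 0 < δr := ENNReal.toReal_pos hU.ne' hδtop
  set C2r : ℝ := δr⁻¹ * C1 with hC2r
  have hC2r0 : 0 ≤ C2r := by positivity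
  have hδinv : δ0⁻¹ = ENNReal.ofReal δr⁻¹ := by
    rw [ENNReal.ofReal_inv_of_pos hδr0, hδr, ENNReal.ofReal_toReal hδtop]
  have hδr8 : ENNReal.ofReal (δr / 8) = δ0 / 8 := by
    rw [ENNReal.ofReal_div_of_pos (by norm_num), hδr, ENNReal.ofReal_toReal hδtop]
    norm_num
  obtain ⟨M1, hM1, hM1a, hM1b⟩ : ∃ M1 : ℝ, 0 < M1 ∧ C1 / M1 ^ β ≤ δr / 8 ∧
      2 * C2r / M1 ^ β / (1 - ρ) ≤ δr / 8 := by
    have h1 : Tendsto (fun x : ℝ => x ^ β) atTop atTop := tendsto_rpow_atTop hβ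
    have h2 := h1.eventually_ge_atTop (8 * C1 / δr)
    have h3 := h1.eventually_ge_atTop (16 * C2r / (1 - ρ) / δr)
    obtain ⟨M1, ⟨h4, h5⟩, h6⟩ := ((h2.and h3).and (eventually_gt_atTop (0 : ℝ))).exists
    have h7 : 0 < M1 ^ β := Real.rpow_pos_of_pos h6 _
    refine ⟨M1, h6, ?_, ?_⟩
    · rw [div_le_iff₀ h7]
      rw [div_le_iff₀ hδr0] at h4
      linarith
    · have h8 : 0 < 1 - ρ := by linarith
      rw [div_le_iff₀ h8, div_le_iff₀ h7]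
      rw [div_le_iff₀ hδr0, div_le_iff₀ h8] at h5
      nlinarith
  have hM1β : 0 < M1 ^ β := Real.rpow_pos_of_pos hM1 _
  set T : ℝ → ℕ := fun x => ⌈M1 * x ^ κ⌉₊ with hT
  have hTpos : ∀ x : ℝ, 1 ≤ x → 1 ≤ T x := by
    intro x hx
    have : 0 < M1 * x ^ κ := by positivity
    exact Nat.one_le_ceil_iff.2 this
  have hTβ : ∀ x : ℝ, 1 ≤ x → M1 ^ β * x ^ (κ * β) ≤ (T x : ℝ) ^ β := by
    intro x hx
    have h1 : M1 * x ^ κ ≤ T x := Nat.le_ceil _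
    have h2 : (M1 * x ^ κ) ^ β ≤ (T x : ℝ) ^ β :=
      Real.rpow_le_rpow (by positivity) h1 hβ.le
    rwa [Real.mul_rpow hM1.le (by positivity), ← Real.rpow_mul (by linarith)] at h2
  refine ⟨M1 * ((2 : ℝ) ^ (j0 + 2)) ^ κ + 2, δ0 / 2, by positivity,
    ENNReal.div_pos hU.ne' (by norm_num), fun L hL => ?_⟩
  have hL' : (1 : ℝ) ≤ L := by exact_mod_cast hL
  set s : Finset ℕ := (Finset.range L).filter (fun j => j0 ≤ j ∧ 2 * 2 ^ j ≤ L) with hs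
  set E0 : List (Step d) → Prop := fun γ => Cr i L γ ∧ T L < γ.length with hE0
  set E1 : ℕ → List (Step d) → Prop := fun j γ =>
    Cr i L γ ∧ ∀ l, L - 2 * 2 ^ j ≤ l → l < L - 2 ^ j → ¬ Cut i γ l with hE1
  set E2 : ℕ → List (Step d) → Prop := fun j γ =>
    Cr i L γ ∧ ∃ l t₀, L - 2 * 2 ^ j ≤ l ∧ l < L - 2 ^ j ∧ CutAt i γ l t₀ ∧
      t₀ + T ((2 : ℝ) ^ j) + 1 < γ.length with hE2
  -- bounds
  have hb0 : Wt ν E0 ≤ δ0 / 8 := by
    refine le_trans (hlong0 L (T L)) (le_trans (hslab L (T L) hL (hTpos _ hL')) ?_)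
    rw [← hδr8]
    refine ENNReal.ofReal_le_ofReal (le_trans ?_ hM1a)
    have h1 := hTβ L hL'
    have h2 : (L : ℝ) ≤ (L : ℝ) ^ (κ * β) := by
      calc (L : ℝ) = (L : ℝ) ^ (1 : ℝ) := (Real.rpow_one _).symm
        _ ≤ (L : ℝ) ^ (κ * β) := Real.rpow_le_rpow_of_exponent_le hL' (by linarith)
    have h3 : 0 < (T L : ℝ) ^ β := lt_of_lt_of_le (by positivity) h1
    rw [div_le_div_iff₀ h3 hM1β]
    have h4 : M1 ^ β * (L : ℝ) ≤ (T L : ℝ) ^ β :=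
      le_trans (mul_le_mul_of_nonneg_left h2 hM1β.le) h1
    nlinarith
  have hb1 : ∑ j ∈ s, Wt ν (E1 j) ≤ δ0 / 8 := by
    refine le_trans (Finset.sum_le_sum (g := f) fun j hj => ?_)
      (le_trans (tip_tail f j0 s fun j hj => (Finset.mem_filter.1 hj).2.1) hj0)
    obtain ⟨-, -, hjL⟩ := Finset.mem_filter.1 hj
    have h1 := hwin L (2 ^ j) (Nat.one_le_two_pow) hjL
    refine le_trans h1 ?_
    have h2 : nc ν i (L + 1) (2 ^ j) ≤ A (2 ^ j) := hAnc _ _ (by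
      have : 1 ≤ 2 ^ j := Nat.one_le_two_pow
      omega)
    have h3 : (((2 ^ j : ℕ) : ℝ≥0∞)) = (2 : ℝ≥0∞) ^ j := by push_cast; rfl
    rw [h3]
    exact mul_le_mul_right h2 _
  have hb2 : ∑ j ∈ s, Wt ν (E2 j) ≤ δ0 / 8 := by
    have hK : 0 ≤ 2 * C2r / M1 ^ β := by positivity
    have h0 : ∀ j ∈ s, Wt ν (E2 j) ≤ ENNReal.ofReal (2 * C2r / M1 ^ β * ρ ^ j) := by
      intro j hj
      obtain ⟨-, -, hjL⟩ := Finset.mem_filter.1 hj
      have hx : (1 : ℝ) ≤ (2 : ℝ) ^ j := one_le_pow₀ (by norm_num)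
      have h1 := hlong L (2 ^ j) (T ((2 : ℝ) ^ j)) Nat.one_le_two_pow hjL
      refine le_trans h1 ?_
      have h2 := hslab (2 * 2 ^ j) (T ((2 : ℝ) ^ j))
        (by have : 1 ≤ 2 ^ j := Nat.one_le_two_pow
            omega) (hTpos _ hx)
      rw [hδinv]
      refine le_trans (mul_le_mul_right h2 _) ?_
      rw [← ENNReal.ofReal_mul (by positivity)]
      refine ENNReal.ofReal_le_ofReal ?_
      have h4 := hTβ _ hx
      have h5 : ρ ^ j = ((2 : ℝ) ^ j) / ((2 : ℝ) ^ j) ^ (κ * β) := by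
        have h50 : ((2 : ℝ) ^ j) = ((2 : ℝ) ^ j) ^ (1 : ℝ) := (Real.rpow_one _).symm
        have h51 : ((2 : ℝ) ^ j) ^ (1 : ℝ) / ((2 : ℝ) ^ j) ^ (κ * β) =
            ((2 : ℝ) ^ j) ^ (1 - κ * β) := (Real.rpow_sub (by positivity) _ _).symm
        calc ρ ^ j = ((2 : ℝ) ^ j) ^ (1 - κ * β) := by
              rw [hρ, ← Real.rpow_natCast, ← Real.rpow_mul (by norm_num), ← Real.rpow_natCast,
                ← Real.rpow_mul (by norm_num)]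
              ring_nf
          _ = ((2 : ℝ) ^ j) ^ (1 : ℝ) / ((2 : ℝ) ^ j) ^ (κ * β) := h51.symm
          _ = _ := by rw [← h50]
      rw [h5]
      have h6 : 0 < M1 ^ β * ((2 : ℝ) ^ j) ^ (κ * β) := by positivity
      have h7 : 0 < (T ((2 : ℝ) ^ j) : ℝ) ^ β := lt_of_lt_of_le h6 h4
      push_cast
      rw [← mul_div_assoc]
      calc δr⁻¹ * (C1 * (2 * 2 ^ j)) / (T ((2 : ℝ) ^ j) : ℝ) ^ β
          ≤ δr⁻¹ * (C1 * (2 * 2 ^ j)) / (M1 ^ β * ((2 : ℝ) ^ j) ^ (κ * β)) :=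
            div_le_div_of_nonneg_left (by positivity) h6 h4
        _ = 2 * C2r / M1 ^ β * ((2 : ℝ) ^ j / ((2 : ℝ) ^ j) ^ (κ * β)) := by
            rw [hC2r]; field_simp
    refine le_trans (Finset.sum_le_sum h0) ?_
    rw [← ENNReal.ofReal_sum_of_nonneg (fun j _ => by positivity), ← hδr8]
    refine ENNReal.ofReal_le_ofReal (le_trans ?_ hM1b)
    have h9 := (summable_geometric_of_lt_one hρ0.le hρ1).sum_le_tsum s
      (fun j _ => by positivity)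
    rw [tsum_geometric_of_lt_one hρ0.le hρ1] at h9
    rw [← Finset.mul_sum, div_eq_mul_inv (2 * C2r / M1 ^ β)]
    exact mul_le_mul_of_nonneg_left h9 hK
  -- assembly
  have hmain : cr ν i L ≤ Wt ν (Tip i L (M1 * ((2 : ℝ) ^ (j0 + 2)) ^ κ + 2) κ) +
      (δ0 / 8 + (δ0 / 8 + δ0 / 8)) := by
    have h1 : cr ν i L ≤ Wt ν (fun γ => Tip i L (M1 * ((2 : ℝ) ^ (j0 + 2)) ^ κ + 2) κ γ ∨
        (E0 γ ∨ ((∃ j ∈ s, E1 j γ) ∨ ∃ j ∈ s, E2 j γ))) := by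
      refine tip_Wt_mono ν fun γ hγ => ?_
      by_contra hno
      push Not at hno
      obtain ⟨hn1, hn2, hn3, hn4⟩ := hno
      apply hn1
      refine tip_good hL hM1 hκ0 hγ ?_ ?_
      · by_contra hlt
        push Not at hlt
        exact hn2 ⟨hγ, hlt⟩
      · intro j hj hjL
        have hjs : j ∈ s := by
          rw [hs, Finset.mem_filter, Finset.mem_range]
          refine ⟨?_, hj, hjL⟩
          have : j < 2 ^ j := Nat.lt_two_pow_self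
          omega
        have h2 := hn3 j hjs
        have h3 : ∃ l, L - 2 * 2 ^ j ≤ l ∧ l < L - 2 ^ j ∧ Cut i γ l := by
          by_contra hno2
          push Not at hno2
          exact h2 ⟨hγ, fun l hl1 hl2 => hno2 l hl1 hl2⟩
        obtain ⟨l, hl1, hl2, t₀, hc⟩ := h3
        refine ⟨l, t₀, hl2, hc, ?_⟩
        by_contra hlt
        push Not at hlt
        exact hn4 j hjs ⟨hγ, l, t₀, hl1, hl2, hc, hlt⟩
    refine le_trans h1 (le_trans (tip_Wt_or ν _ _) (add_le_add le_rfl ?_))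
    refine le_trans (tip_Wt_or ν _ _) (add_le_add hb0 ?_)
    refine le_trans (tip_Wt_or ν _ _) (add_le_add ?_ ?_)
    · exact le_trans (tip_Wt_exists ν s E1) hb1
    · exact le_trans (tip_Wt_exists ν s E2) hb2
  have h2 : δ0 ≤ Wt ν (Tip i L (M1 * ((2 : ℝ) ^ (j0 + 2)) ^ κ + 2) κ) +
      (δ0 / 8 + (δ0 / 8 + δ0 / 8)) := le_trans (hcr L) hmain
  have h3 : δ0 / 8 + (δ0 / 8 + δ0 / 8) ≤ δ0 / 2 := by
    have h4 : δ0 / 8 = ENNReal.ofReal (δr / 8) := hδr8.symm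
    have h5 : δ0 / 2 = ENNReal.ofReal (δr / 2) := by
      rw [ENNReal.ofReal_div_of_pos (by norm_num), hδr, ENNReal.ofReal_toReal hδtop]
      norm_num
    rw [h4, h5, ← ENNReal.ofReal_add (by positivity) (by positivity),
      ← ENNReal.ofReal_add (by positivity) (by positivity)]
    exact ENNReal.ofReal_le_ofReal (by linarith)
  have h6 : δ0 ≤ Wt ν (Tip i L (M1 * ((2 : ℝ) ^ (j0 + 2)) ^ κ + 2) κ) + δ0 / 2 :=
    le_trans h2 (add_le_add le_rfl h3)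
  have h7 : δ0 / 2 + δ0 / 2 = δ0 := ENNReal.add_halves δ0
  have h8 : δ0 / 2 ≠ ⊤ := (ENNReal.div_lt_top hδtop (by norm_num)).ne
  by_contra hlt
  push Not at hlt
  have h9 := ENNReal.add_lt_add_right h8 hlt
  rw [h7] at h9
  exact absurd h6 (not_le.2 h9)


theorem tips2 {ν : Measure (ℕ → Step d)} (h : Law ν) (i : Fin d) {β b κ : ℝ} (hβ : 0 < β)
    (_hβ1 : β ≤ 1) (hb : 0 ≤ b) (hU : 0 < ν (UpP i (fun n => (n : ℝ) ^ β - b))) (hκ : 1 / β < κ) :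
    ∃ (M : ℝ) (δ : ℝ≥0∞), 0 < M ∧ 0 < δ ∧ ∀ L : ℕ, 1 ≤ L → δ ≤ Wt ν (Tip i L M κ) := by
  have hψ : Tendsto (fun n : ℕ => (n : ℝ) ^ β - b) atTop atTop :=
    tendsto_atTop_add_const_right _ _
      ((tendsto_rpow_atTop hβ).comp tendsto_natCast_atTop_atTop)
  have hcr : ∀ m, ν (UpP i (fun n => (n : ℝ) ^ β - b)) ≤ cr ν i m := fun m => cr_lower h i hψ m
  have hcr1 : ∀ m, cr ν i m ≤ 1 := fun m => by
    have := Wt_Cr_le h i m (fun _ => True)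
    simpa [cr] using this
  exact tips_of2 i hβ hU hκ hcr hcr1 (slab h i hβ hb hU) (nc_sum h i hU hcr)
    (cut_window h i hU hcr) (fun L t => long0 h i L t)
    (fun L lam t h1 h2 => long2 h i hU hcr L lam t h1 h2)

end Vale.Agent.Lib.P147H
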